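import Mathlib
import Vale.Agent.Lib.P040.SpineDefs
import Vale.Agent.Lib.P040.SpineLemmas

/-!
# P040, Zarankiewicz's conjecture for monotone spine drawings

Drawings of `K_{m,n}` in which the `n` vertices of one class lie on the `x`-axis, at the points
`(b j, 0)`, the `m` vertices of the other class lie off the axis, at the points `(ax i, ah i)`,
and the edge from `i` to `j` is a `y`-monotone arc: the graph `x = f i j y` of a continuous
function over the heights `y` between `0` and `ah i`.  For every such drawing the number of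
crossing points is at least `⌊m/2⌋ ⌊(m-1)/2⌋ ⌊n/2⌋ ⌊(n-1)/2⌋`.
-/

namespace Vale.Agent.Results.P040.MonotoneSpine

open Vale.Agent.Lib.P040

theorem result (m n : ℕ) (ax ah : Fin m → ℝ) (b : Fin n → ℝ) (f : Fin m → Fin n → ℝ → ℝ)
    (hah : ∀ i, ah i ≠ 0)
    (hb : Function.Injective b)
    (hcont : ∀ i j, ContinuousOn (f i j) (Set.uIcc 0 (ah i)))
    (htop : ∀ i j, f i j (ah i) = ax i)
    (hbot : ∀ i j, f i j 0 = b j)
    (hvert : ∀ (e : Fin m × Fin n) (k : Fin m), (ax k, ah k) ∈ edge ah f e → k = e.1)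
    (htriple : ∀ (p : ℝ × ℝ) (e1 e2 e3 : Fin m × Fin n), e1 ≠ e2 → e1 ≠ e3 → e2 ≠ e3 →
      p ∈ edge ah f e1 → p ∈ edge ah f e2 → p ∈ edge ah f e3 →
      (∃ i, p = (ax i, ah i)) ∨ ∃ j, p = (b j, 0)) :
    (((m / 2) * ((m - 1) / 2) * ((n / 2) * ((n - 1) / 2)) : ℕ) : ℕ∞) ≤
      Set.encard {p : ℝ × ℝ | (∀ i, p ≠ (ax i, ah i)) ∧ (∀ j, p ≠ (b j, 0)) ∧
        ∃ e1 e2 : Fin m × Fin n, e1 ≠ e2 ∧ p ∈ edge ah f e1 ∧ p ∈ edge ah f e2} :=
  spine_main m n ax ah b f hah hb hcont htop hbot hvert htriple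

end Vale.Agent.Results.P040.MonotoneSpine
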